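import Vale.Agent.P088.H705.SV
import Vale.Agent.P088.H198.Defs4

/-!
# P088, phase 2: row SV2 (the multiplicative gauge, any base tensor)
-/

open MeasureTheory Set
open scoped ContDiff Matrix

noncomputable section

namespace Vale.Agent.P088.LR.H705

open Vale.Agent.P088.LR Vale.Agent.P088.LR.CF

variable {n : ℕ}

/-- **Row SV2** -/
theorem sv2 : RowSV2 := by
  intro n Ω hΩ hb hi s₁ s h1m hs h1s hsym hoff q hq hq0 hSQ v hv hv1 hveq U W hU hW hU0 hW0
  have hcv : ContDiff ℝ ∞ (cx v) := Complex.ofRealCLM.contDiff.comp hv.1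
  have hcq : ContDiff ℝ ∞ (cx q) := Complex.ofRealCLM.contDiff.comp hq
  have hv0 : ∀ x, cx v x ≠ 0 := fun x => by
    unfold cx
    exact_mod_cast (hv.2 x).ne'
  have hvW : ContDiff ℝ ∞ (fun y => cx v y * W y) := hcv.mul hW
  have hs2 : SmM (fun x => (v x) ^ 2 • s x) := fun i j => by
    simp only [Matrix.smul_apply, smul_eq_mul]
    exact (hv.1.pow 2).mul (hs i j)
  have hs2sym : ∀ x, ((v x) ^ 2 • s x).IsSymm := fun x => (hsym x).smul _
  have hfr : ∀ x ∈ frontier Ω, x ∉ Ω := fun x hx h => by
    rw [hΩ.frontier_eq] at hx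
    exact hx.2 h
  have hio : ∀ f : V n → ℂ, Continuous f → IntegrableOn f Ω := fun f hf =>
    (hf.continuousOn.integrableOn_compact hb.isCompact_closure).mono_set subset_closure
  -- (1) the equation of `v W`
  have h1 : ∀ x ∈ Ω, dv s (fun y => cx v y * W y) x = (q x : ℂ) * (cx v x * W x) := by
    intro x hx
    have e1 := hW0 x hx
    rw [dv_sq hs hv.1 hW] at e1
    have e2 : 2 * B s (cx v) W x + cx v x * dv s W x = 0 := by
      have : cx v x * (2 * B s (cx v) W x + cx v x * dv s W x) = 0 := by linear_combination e1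
      exact (mul_eq_zero.1 this).resolve_left (hv0 x)
    rw [dv_mul hs hsym hcv hW]
    have e3 := hveq x
    have e4 : dv s (cx v) x = (q x : ℂ) * cx v x := e3
    rw [e4]
    linear_combination e2
  -- (2) the orthogonality
  have h2 := hSQ U _ hU hvW hU0 h1
  -- (3a)
  have h3 : bl Ω s₁ U (fun y => (cx v y - 1) * W y) = 0 := by
    refine weak Ω hΩ hb _ h1m h1s U _ hU ((hcv.sub contDiff_const).mul hW) hU0 ?_
    intro x hx
    have : cx v x = 1 := by
      unfold cx
      rw [hv1 x (hfr x hx), Complex.ofReal_one]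
    rw [this, sub_self, zero_mul]
  -- (3b)
  have hinv : ContDiff ℝ ∞ (fun y => (cx v y)⁻¹) := hcv.inv hv0
  have h4 : bl Ω (fun x => (v x) ^ 2 • s x) W (fun y => U y * ((cx v y)⁻¹ - 1)) = 0 := by
    refine weak Ω hΩ hb _ hs2 hs2sym W _ hW (hU.mul (hinv.sub contDiff_const)) hW0 ?_
    intro x hx
    have : cx v x = 1 := by
      unfold cx
      rw [hv1 x (hfr x hx), Complex.ofReal_one]
    rw [this, inv_one, sub_self, mul_zero]
  -- (4) the field `U W s ∇v`
  have hUW : ContDiff ℝ ∞ (fun y => U y * W y) := hU.mul hW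
  have hpv : ∀ x ∉ Ω, ∀ j, pd j (cx v) x = 0 := by
    intro x hx j
    have h5 := H158.fderiv_zero_off (n := n) hi (G := fun y => cx v y - 1) (hcv.sub contDiff_const)
      (fun y hy => by
        show cx v y - 1 = 0
        unfold cx
        rw [hv1 y hy, Complex.ofReal_one, sub_self]) hx
    unfold pd
    have h6 : fderiv ℝ (fun y => cx v y - 1) x = fderiv ℝ (cx v) x := by
      rw [fderiv_sub_const]
    rw [← h6, h5]
    rfl
  have hG : ∀ i, ContDiff ℝ ∞ (fun y => (U y * W y) * flx s (cx v) i y) := fun i =>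
    hUW.mul (contDiff_flx hs hcv i)
  have hG0 : ∀ i, ∀ x ∉ Ω, (U x * W x) * flx s (cx v) i x = 0 := by
    intro i x hx
    unfold flx
    rw [Finset.sum_eq_zero fun j _ => by rw [hpv x hx j, mul_zero], mul_zero]
  have h5 : ∫ x in Ω, (U x * B s W (cx v) x + W x * B s U (cx v) x +
      (q x : ℂ) * (U x * W x * cx v x)) = 0 := by
    have h6 : ∫ x, ∑ i, pd i (fun y => (U y * W y) * flx s (cx v) i y) x = 0 := by
      rw [integral_finsetSum _ fun i _ => (H158.integral_pd_zero hb (hG i) (hG0 i) i).1]
      exact Finset.sum_eq_zero fun i _ => (H158.integral_pd_zero hb (hG i) (hG0 i) i).2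
    have h7 : ∫ x in Ω, ∑ i, pd i (fun y => (U y * W y) * flx s (cx v) i y) x =
        ∫ x, ∑ i, pd i (fun y => (U y * W y) * flx s (cx v) i y) x := by
      apply setIntegral_eq_integral_of_forall_compl_eq_zero
      intro x hx
      refine Finset.sum_eq_zero fun i _ => ?_
      unfold pd
      rw [H158.fderiv_zero_off hi (hG i) (hG0 i) hx]
      rfl
    rw [h6] at h7
    rw [← h7]
    refine integral_congr_ae (Filter.Eventually.of_forall fun x => ?_)
    show U x * B s W (cx v) x + W x * B s U (cx v) x + (q x : ℂ) * (U x * W x * cx v x) =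
      ∑ i, pd i (fun y => (U y * W y) * flx s (cx v) i y) x
    rw [div_mul hs hUW hcv, B_mul_left s hU hW]
    have e4 : dv s (cx v) x = (q x : ℂ) * cx v x := hveq x
    rw [e4]
    ring
  -- (5) everything as integrals of pointwise forms
  -- the sum of the four integrands vanishes
  have hsum : ∀ x, B (fun x => (v x) ^ 2 • s x - s₁ x) U W x =
      (B (fun x => s x - s₁ x) U (fun y => cx v y * W y) x + (q x : ℂ) * U x * (cx v x * W x)) +
      B s₁ U (fun y => (cx v y - 1) * W y) x -
      B (fun x => (v x) ^ 2 • s x) W (fun y => U y * ((cx v y)⁻¹ - 1)) x -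
      (U x * B s W (cx v) x + W x * B s U (cx v) x + (q x : ℂ) * (U x * W x * cx v x)) := by
    intro x
    have a1 : B (fun x => (v x) ^ 2 • s x - s₁ x) U W x =
        B (fun x => (v x) ^ 2 • s x) U W x - B s₁ U W x := by
      unfold B
      simp only [Matrix.sub_apply, Complex.ofReal_sub, sub_mul, Finset.sum_sub_distrib]
    have a2 : B (fun x => s x - s₁ x) U (fun y => cx v y * W y) x =
        B s U (fun y => cx v y * W y) x - B s₁ U (fun y => cx v y * W y) x := by
      unfold B
      simp only [Matrix.sub_apply, Complex.ofReal_sub, sub_mul, Finset.sum_sub_distrib]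
    have a3 : (fun y => (cx v y - 1) * W y) = fun y => cx v y * W y - W y := by
      funext y
      ring
    have a4 : B s₁ U (fun y => cx v y * W y - W y) x =
        B s₁ U (fun y => cx v y * W y) x - B s₁ U W x := by
      unfold B
      simp only [H884.pd_sub hvW hW, mul_sub, Finset.sum_sub_distrib]
    have a5 : (fun y => U y * ((cx v y)⁻¹ - 1)) = fun y => U y * (cx v y)⁻¹ - U y := by
      funext y
      ring
    have a6 : B s W (fun y => U y * (cx v y)⁻¹ - U y) x =
        B s W (fun y => U y * (cx v y)⁻¹) x - B s W U x := by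
      unfold B
      simp only [H884.pd_sub (hU.mul hinv) hU, mul_sub, Finset.sum_sub_distrib]
    have a7 : ∀ i, pd i (fun y => (cx v y)⁻¹) x = -(pd i (cx v) x) / cx v x ^ 2 := by
      intro i
      have b1 : pd i (fun y => cx v y * (cx v y)⁻¹) x = 0 := by
        have : (fun y => cx v y * (cx v y)⁻¹) = fun _ => 1 := by
          funext y
          exact mul_inv_cancel₀ (hv0 y)
        rw [this]
        unfold pd
        simp
      rw [pd_mul hcv hinv] at b1
      have b0 := hv0 x
      field_simp at b1 ⊢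
      linear_combination b1
    have a8 : B s W (fun y => (cx v y)⁻¹) x = -(B s W (cx v) x) / cx v x ^ 2 := by
      unfold B
      simp only [a7]
      rw [neg_div, Finset.sum_div, ← Finset.sum_neg_distrib]
      refine Finset.sum_congr rfl fun i _ => ?_
      rw [Finset.sum_div, ← Finset.sum_neg_distrib]
      exact Finset.sum_congr rfl fun j _ => by ring
    rw [a1, a2, a3, a4, a5, B_sq, B_sq, a6, B_mul_right s hcv hW, B_mul_right s hU hinv, a8,
      B_symm hsym U W, B_symm hsym U (cx v)]
    have b0 := hv0 x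
    rw [B_symm hsym (cx v) U, B_symm hsym U (cx v)]
    field_simp
    ring
  have hsm1 : SmM (fun x => s x - s₁ x) := fun i j => (hs i j).sub (h1m i j)
  have k1 : IntegrableOn (B (fun x => s x - s₁ x) U (fun y => cx v y * W y)) Ω :=
    hio _ (continuous_B hsm1 hU hvW)
  have k2 : IntegrableOn (fun x => (q x : ℂ) * U x * (cx v x * W x)) Ω :=
    hio _ ((hcq.continuous.mul hU.continuous).mul hvW.continuous)
  have k3 : IntegrableOn (B s₁ U (fun y => (cx v y - 1) * W y)) Ω :=
    hio _ (continuous_B h1m hU ((hcv.sub contDiff_const).mul hW))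
  have k4 : IntegrableOn (B (fun x => (v x) ^ 2 • s x) W (fun y => U y * ((cx v y)⁻¹ - 1))) Ω :=
    hio _ (continuous_B hs2 hW (hU.mul (hinv.sub contDiff_const)))
  have k5 : IntegrableOn (fun x => U x * B s W (cx v) x + W x * B s U (cx v) x +
      (q x : ℂ) * (U x * W x * cx v x)) Ω :=
    hio _ (((hU.continuous.mul (continuous_B hs hW hcv)).add
      (hW.continuous.mul (continuous_B hs hU hcv))).add
      (hcq.continuous.mul (hUW.continuous.mul hcv.continuous)))
  have k12 : IntegrableOn (fun x => B (fun x => s x - s₁ x) U (fun y => cx v y * W y) x +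
      (q x : ℂ) * U x * (cx v x * W x)) Ω := k1.add k2
  have h2' : ∫ x in Ω, (B (fun x => s x - s₁ x) U (fun y => cx v y * W y) x +
      (q x : ℂ) * U x * (cx v x * W x)) = 0 := by
    rw [integral_add k1 k2]
    exact h2
  rw [bl_eq] at h3 h4
  rw [bl_eq, integral_congr_ae (Filter.Eventually.of_forall hsum), int4 k12 k3 k4 k5, h5, h2',
    h3, h4]
  simp

end Vale.Agent.P088.LR.H705
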